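import Mathlib

/-! P029: core definitions (free associative algebras, words, Lie elements, pentagon). -/

noncomputable section

namespace Vale.Agent.P029

open FreeAlgebra

/-- Free associative algebra. -/
abbrev FA (R : Type) [CommRing R] (X : Type) : Type := FreeAlgebra R X

/-- Commutator. -/
def br {A : Type} [Ring A] (a b : A) : A := a * b - b * a

section
variable (R : Type) [CommRing R] {X Y : Type}

/-- The monomial of a word. -/
def wd (w : List X) : FA R X := (w.map (ι R)).prod

/-- The bracket monomial of a magma element. -/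
def lm : FreeMagma X → FA R X
  | FreeMagma.of x => ι R x
  | FreeMagma.mul a b => br (lm a) (lm b)

end

/-- Weight of a word. -/
def ww {X : Type} (wt : X → ℕ) (w : List X) : ℕ := (w.map wt).sum

/-- Weight of a magma element. -/
def mw {X : Type} (wt : X → ℕ) : FreeMagma X → ℕ
  | FreeMagma.of x => wt x
  | FreeMagma.mul a b => mw wt a + mw wt b

/-- The weight giving each letter weight one. -/
def one1 {X : Type} : X → ℕ := fun _ => 1

section
variable {R : Type} [CommRing R] {X Y : Type}

/-- The coefficient of a word. -/
def co (w : List X) : FA R X →ₗ[R] R :=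
  (FreeAlgebra.basisFreeMonoid R X).coord (FreeMonoid.ofList w)

/-- The linear map with prescribed values on words. -/
def onW {M : Type} [AddCommGroup M] [Module R M] (f : List X → M) : FA R X →ₗ[R] M :=
  (FreeAlgebra.basisFreeMonoid R X).constr R (fun w => f (FreeMonoid.toList w))

/-- Evaluation of a two variable polynomial. -/
def ev {A : Type} [Ring A] [Algebra R A] (u v : A) : FA R (Fin 2) →ₐ[R] A :=
  FreeAlgebra.lift R ![u, v]

/-- The dual number `a + ε b`. -/
def dn {A : Type} [Ring A] (a b : A) : DualNumber A := TrivSqZeroExt.inl a + TrivSqZeroExt.inr b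

/-- The derivation along the homomorphism `lift g` with values `f` on the generators. -/
def derA {A : Type} [Ring A] [Algebra R A] (g f : X → A) : FA R X →ₗ[R] A where
  toFun φ := (FreeAlgebra.lift R (fun x => dn (g x) (f x)) φ).snd
  map_add' a b := by simp
  map_smul' r a := by simp

/-- The derivation of the free algebra with values `f` on the generators. -/
def der (f : X → FA R X) : Module.End R (FA R X) := derA (ι R) f

/-- Leibniz rule. -/
def IsDer {A : Type} [Ring A] [Algebra R A] (D : Module.End R A) : Prop :=
  ∀ a b, D (a * b) = D a * b + a * D b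

variable (R) in
/-- Homogeneous polynomials of weight `n`. -/
def HomW (wt : X → ℕ) (n : ℕ) : Submodule R (FA R X) :=
  Submodule.span R {f | ∃ w, ww wt w = n ∧ f = wd R w}

variable (R) in
/-- Polynomials all of whose words have weight at least `n`. -/
def GeW (wt : X → ℕ) (n : ℕ) : Submodule R (FA R X) :=
  Submodule.span R {f | ∃ w, n ≤ ww wt w ∧ f = wd R w}

/-- Projection to weight `n`. -/
def proj (wt : X → ℕ) (n : ℕ) : Module.End R (FA R X) :=
  onW (fun w => if ww wt w = n then wd R w else 0)

open Classical in
/-- Strip the first letter `z`. -/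
def stL (z : X) : Module.End R (FA R X) :=
  onW (fun w => if w.head? = some z then wd R w.tail else 0)

open Classical in
/-- Strip the suffix `s`. -/
def stR (s : List X) : Module.End R (FA R X) :=
  onW (fun w => if s <:+ w then wd R (w.take (w.length - s.length)) else 0)

variable (R X) in
/-- Lie polynomials. -/
def LieA : Submodule R (FA R X) := Submodule.span R (Set.range (lm R))

variable (R) in
/-- Homogeneous Lie polynomials of weight `n`. -/
def LieW (wt : X → ℕ) (n : ℕ) : Submodule R (FA R X) :=
  Submodule.span R {f | ∃ m, mw wt m = n ∧ f = lm R m}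

variable (R X) in
/-- Lie polynomials of order at least `k`. -/
def LieGe (k : ℕ) : Submodule R (FA R X) :=
  Submodule.span R {f | ∃ m : FreeMagma X, k ≤ mw one1 m ∧ f = lm R m}

/-- The Ihara derivation. -/
def dI (ψ : FA R (Fin 2)) : Module.End R (FA R (Fin 2)) := der ![0, br (ι R 1) ψ]

/-- The Ihara bracket. -/
def ih (ψ φ : FA R (Fin 2)) : FA R (Fin 2) := dI ψ φ - dI φ ψ + br ψ φ

/-- The relations of the sphere braid Lie algebra on five strands:
`a = x12, b = x23, c = x34, d = x45, e = x51`. -/
structure Sys {A : Type} [Ring A] (a b c d e : A) : Prop where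
  ac : Commute a c
  ad : Commute a d
  bd : Commute b d
  be : Commute b e
  ce : Commute c e
  five : br a b + br b c + br c d + br d e + br e a = 0

/-- The pentagon expression. -/
def pentE {A : Type} [Ring A] [Algebra R A] (a b c d e : A) (ψ : FA R (Fin 2)) : A :=
  ev a e ψ + ev c b ψ + ev e d ψ + ev b a ψ + ev d c ψ

/-- The pentagon equation. -/
def Pent (ψ : FA R (Fin 2)) : Prop :=
  ∀ (A : Type) [Ring A] [Algebra R A] (a b c d e : A), Sys a b c d e → pentE a b c d e ψ = 0

/-- The symmetric form of `Sys`. -/
structure SB {A : Type} [Ring A] (x : Fin 5 → Fin 5 → A) : Prop where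
  symm : ∀ i j, x i j = x j i
  comm : ∀ i j k l, i ≠ j → i ≠ k → i ≠ l → j ≠ k → j ≠ l → k ≠ l → Commute (x i j) (x k l)
  tri : ∀ i j k l m, i ≠ j → i ≠ k → i ≠ l → i ≠ m → j ≠ k → j ≠ l → j ≠ m → k ≠ l → k ≠ m →
    l ≠ m → x i j + x j k + x i k = x l m

/-- The table of all `x i j` (indices `0..4` stand for `1..5`). -/
def sbT {A : Type} [Ring A] (a b c d e : A) : Fin 5 → Fin 5 → A :=
  ![![0, a, d - a - b, b - d - e, e], ![a, 0, b, e - b - c, c - a - e],
    ![d - a - b, b, 0, c, a - c - d], ![b - d - e, e - b - c, c, 0, d],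
    ![e, c - a - e, a - c - d, d, 0]]

open Classical in
/-- Elimination representation: letters with `p` act by derivations, the others by left
multiplication. -/
def elimRep (p : X → Prop) (s : X → Y → FA R Y) (t : X → FA R Y) :
    FA R X →ₐ[R] Module.End R (FA R Y) :=
  FreeAlgebra.lift R (fun x => if p x then der (s x) else LinearMap.mulLeft R (t x))

/-- Elimination map. -/
def elimR (p : X → Prop) (s : X → Y → FA R Y) (t : X → FA R Y) : FA R X →ₗ[R] FA R Y :=
  (LinearMap.applyₗ (1 : FA R Y)) ∘ₗ (elimRep p s t).toLinearMap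

open Classical in
/-- Kill the letters outside `p`. -/
def keep (p : X → Prop) : FA R X →ₐ[R] FA R X :=
  FreeAlgebra.lift R (fun x => if p x then ι R x else 0)

/-- Base change from the integers. -/
def bc (K : Type) [CommRing K] : FA ℤ X →ₐ[ℤ] FA K X := FreeAlgebra.lift ℤ (ι K)

/-- The word `x^j y`. -/
def xy (j : ℕ) : List (Fin 2) := List.replicate j 0 ++ [1]

/-- `adI i = ad_x^i y`. -/
def adI (i : ℕ) : FA R (Fin 2) := (fun f => br (ι R 0) f)^[i] (ι R 1)

/-- Elimination of the letter `0` from two letters. -/
def rI : FA R (Fin 2) →ₗ[R] FA R ℕ :=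
  elimR (fun x => x = 0) (fun _ i => ι R (i + 1)) (fun _ => ι R 0)

/-- Iterated bracket `ad_{l} z`. -/
def adL {A : Type} [Ring A] (f : X → A) (l : List X) (z : A) : A := l.foldr (fun x u => br (f x) u) z

end

end Vale.Agent.P029
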